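import Vale.Agent.P194.Ext
import Vale.Agent.P194.FreeP

/-!
# P201: Magnus coordinates on the group algebra of a free group, by Fox derivatives
-/

open scoped Pointwise

namespace Vale.Agent.P201.Free

open MonoidAlgebra Vale.Agent.P194

variable {α : Type} [DecidableEq α] (R : Type) [CommRing R]

/-- The sum of the coefficients. -/
noncomputable def eps (G : Type) [Group G] : MonoidAlgebra R G →ₐ[R] R :=
  MonoidAlgebra.lift R R G 1

@[simp] lemma eps_single {G : Type} [Group G] (g : G) (c : R) : eps R G (single g c) = c := by
  simp [eps]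

/-- The value at a generator of the homomorphism defining a Fox derivative. -/
noncomputable def foxGen (i j : α) : (Matrix (Fin 2) (Fin 2) (MonoidAlgebra R (FreeGroup α)))ˣ where
  val := !![1, if j = i then 1 else 0; 0, single (FreeGroup.of j) 1]
  inv := !![1, -(if j = i then single (FreeGroup.of j)⁻¹ 1 else 0);
            0, single (FreeGroup.of j)⁻¹ 1]
  val_inv := by
    ext a b
    fin_cases a <;> fin_cases b <;>
      simp [Matrix.mul_apply, Fin.sum_univ_two, single_mul_single, ← one_def]
  inv_val := by
    ext a b
    fin_cases a <;> fin_cases b <;>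
      simp [Matrix.mul_apply, Fin.sum_univ_two, single_mul_single, ← one_def]

/-- The homomorphism defining a Fox derivative. -/
noncomputable def foxHom (i : α) :
    FreeGroup α →* (Matrix (Fin 2) (Fin 2) (MonoidAlgebra R (FreeGroup α)))ˣ :=
  FreeGroup.lift (foxGen R i)

lemma foxHom_shape (i : α) (g : FreeGroup α) :
    (foxHom R i g).val 0 0 = 1 ∧ (foxHom R i g).val 1 0 = 0 ∧
      (foxHom R i g).val 1 1 = single g 1 := by
  induction g using FreeGroup.induction_on with
  | C1 => simp [one_def]
  | of x => simp [foxHom, foxGen]
  | inv_of x _ =>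
      rw [map_inv]
      simp [foxHom, foxGen]
  | mul g h hg hh =>
      obtain ⟨a1, a2, a3⟩ := hg
      obtain ⟨b1, b2, b3⟩ := hh
      refine ⟨?_, ?_, ?_⟩ <;>
        simp [map_mul, Matrix.mul_apply, Fin.sum_univ_two, a1, a2, a3, b1, b2, b3,
          single_mul_single]

/-- The right Fox derivative of a group element. -/
noncomputable def foxG (i : α) (g : FreeGroup α) : MonoidAlgebra R (FreeGroup α) :=
  (foxHom R i g).val 0 1

lemma foxG_mul (i : α) (g h : FreeGroup α) :
    foxG R i (g * h) = foxG R i h + foxG R i g * single h 1 := by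
  obtain ⟨a1, a2, a3⟩ := foxHom_shape R i g
  obtain ⟨b1, b2, b3⟩ := foxHom_shape R i h
  simp [foxG, map_mul, Matrix.mul_apply, Fin.sum_univ_two, a1, b3]

@[simp] lemma foxG_one (i : α) : foxG R i 1 = 0 := by
  simp [foxG]

lemma foxG_of (i j : α) : foxG R i (FreeGroup.of j) = if j = i then 1 else 0 := by
  simp [foxG, foxHom, foxGen]

lemma foxG_inv (i : α) (g : FreeGroup α) : foxG R i g⁻¹ = -(foxG R i g * single g⁻¹ 1) := by
  have h := foxG_mul R i g g⁻¹
  rw [mul_inv_cancel, foxG_one] at h
  exact eq_neg_of_add_eq_zero_left h.symm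

/-- The Fox derivative, extended linearly. -/
noncomputable def fox (i : α) :
    MonoidAlgebra R (FreeGroup α) →ₗ[R] MonoidAlgebra R (FreeGroup α) :=
  (Finsupp.linearCombination R (foxG R i)).comp (coeffLinearEquiv R).toLinearMap

@[simp] lemma fox_single (i : α) (g : FreeGroup α) (c : R) :
    fox R i (single g c) = c • foxG R i g := by
  simp [fox]

lemma fox_mul (i : α) (x y : MonoidAlgebra R (FreeGroup α)) :
    fox R i (x * y) = fox R i x * y + eps R _ x • fox R i y := by
  induction x using MonoidAlgebra.induction_linear with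
  | zero => simp
  | add u v hu hv => simp only [add_mul, map_add, hu, hv, add_smul]; abel
  | single g a =>
      induction y using MonoidAlgebra.induction_linear with
      | zero => simp
      | add u v hu hv =>
          simp only [mul_add, map_add, smul_add] at hu hv ⊢
          rw [hu, hv]; abel
      | single h b =>
          rw [single_mul_single, fox_single, fox_single, fox_single, eps_single, foxG_mul,
            smul_add, smul_smul, smul_mul_assoc,
            show single h b = b • single h (1 : R) by simp, mul_smul_comm, smul_smul, add_comm]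

/-- Magnus coordinates. -/
noncomputable def coord : List α → MonoidAlgebra R (FreeGroup α) →ₗ[R] R
  | [] => (eps R _).toLinearMap
  | i :: w => (coord w).comp (fox R i)

@[simp] lemma coord_nil (x : MonoidAlgebra R (FreeGroup α)) : coord R [] x = eps R _ x := rfl

@[simp] lemma coord_cons (i : α) (w : List α) (x : MonoidAlgebra R (FreeGroup α)) :
    coord R (i :: w) x = coord R w (fox R i x) := rfl

/-- All coordinates of degree less than n vanish. -/
def Low (n : ℕ) (x : MonoidAlgebra R (FreeGroup α)) : Prop :=
  ∀ w : List α, w.length < n → coord R w x = 0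

lemma coord_low_right (m : ℕ) (w : List α) (hw : w.length ≤ m)
    (a b : MonoidAlgebra R (FreeGroup α)) (hb : Low R m b) :
    coord R w (a * b) = eps R _ a * coord R w b := by
  induction w generalizing a b m with
  | nil => simp
  | cons i w ih =>
      simp only [List.length_cons] at hw
      rw [coord_cons, fox_mul, map_add, map_smul, ih m (by omega) _ _ hb, hb w (by omega)]
      simp

lemma coord_mul (n m : ℕ) (a b : MonoidAlgebra R (FreeGroup α)) (ha : Low R n a)
    (hb : Low R m b) :
    Low R (n + m) (a * b) ∧ ∀ u v : List α, u.length = n → v.length = m →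
      coord R (u ++ v) (a * b) = coord R u a * coord R v b := by
  induction n generalizing a with
  | zero =>
      refine ⟨fun w hw => ?_, fun u v hu hv => ?_⟩
      · rw [coord_low_right R m w (by omega) a b hb, hb w (by omega), mul_zero]
      · rw [List.eq_nil_of_length_eq_zero hu, List.nil_append,
          coord_low_right R m v hv.le a b hb, coord_nil]
  | succ n ih =>
      have he : eps R _ a = 0 := ha [] (by simp)
      have hD : ∀ i, Low R n (fox R i a) := fun i w hw => ha (i :: w) (by simpa using hw)
      refine ⟨fun w hw => ?_, fun u v hu hv => ?_⟩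
      · cases w with
        | nil => simp [he]
        | cons i w =>
            rw [coord_cons, fox_mul, he, zero_smul, add_zero]
            exact (ih _ (hD i)).1 w (by simp only [List.length_cons] at hw; omega)
      · cases u with
        | nil => simp at hu
        | cons i u =>
            rw [List.cons_append, coord_cons, coord_cons, fox_mul, he, zero_smul, add_zero]
            exact (ih _ (hD i)).2 u v (by simpa using hu) hv

section Map

variable {R} {S : Type} [CommRing S] (f : R →+* S)

lemma foxG_map (i : α) (g : FreeGroup α) :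
    mapRingHom (FreeGroup α) f (foxG R i g) = foxG S i g := by
  induction g using FreeGroup.induction_on with
  | C1 => simp
  | of x => rw [foxG_of, foxG_of]; split_ifs <;> simp
  | inv_of x hx => simp [foxG_inv, hx]
  | mul g h hg hh => simp [foxG_mul, hg, hh]

lemma coord_map (w : List α) (x : MonoidAlgebra R (FreeGroup α)) :
    coord S w (mapRingHom (FreeGroup α) f x) = f (coord R w x) := by
  induction w generalizing x with
  | nil =>
      induction x using MonoidAlgebra.induction_linear with
      | zero => simp
      | add u v hu hv => simp only [map_add, hu, hv]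
      | single g a => simp
  | cons i w ih =>
      rw [coord_cons, coord_cons, ← ih]
      congr 1
      induction x using MonoidAlgebra.induction_linear with
      | zero => simp
      | add u v hu hv => simp only [map_add, hu, hv]
      | single g a =>
          rw [mapRingHom_single, fox_single, fox_single]
          rw [show a • foxG R i g = single (1 : FreeGroup α) a * foxG R i g by
              ext t; simp, map_mul, mapRingHom_single, foxG_map,
            show f a • foxG S i g = single (1 : FreeGroup α) (f a) * foxG S i g by
              ext t; simp]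

end Map

section Field

variable {K : Type} [Field K]

lemma eps_eq_aug (x : MonoidAlgebra K (FreeGroup α)) :
    eps K _ x = aug K _ x := rfl

lemma foxG_expand (g : FreeGroup α) : ∃ S : Finset α, (∀ i ∉ S, foxG K i g = 0) ∧
    single g (1 : K) - 1 = ∑ i ∈ S, (single (FreeGroup.of i) 1 - 1) * foxG K i g := by
  classical
  induction g using FreeGroup.induction_on with
  | C1 => exact ⟨∅, by simp, by simp [one_def]⟩
  | of x =>
      refine ⟨{x}, fun i hi => ?_, by simp [foxG_of]⟩
      rw [foxG_of, if_neg]
      intro e; exact hi (by simp [e])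
  | inv_of x hx =>
      obtain ⟨S, h1, h2⟩ := hx
      refine ⟨S, fun i hi => by rw [foxG_inv, show foxG K i (FreeGroup.of x) = 0 from h1 i hi]; simp,
        ?_⟩
      simp only [foxG_inv, mul_neg, ← mul_assoc, Finset.sum_neg_distrib, ← Finset.sum_mul]
      rw [show ∑ i ∈ S, (single (FreeGroup.of i) (1 : K) - 1) * foxG K i (FreeGroup.of x) =
        single (FreeGroup.of x) 1 - 1 from h2.symm]
      simp [sub_mul, single_mul_single, ← one_def]
  | mul g h hg hh =>
      obtain ⟨S, h1, h2⟩ := hg
      obtain ⟨T, h3, h4⟩ := hh
      refine ⟨S ∪ T, fun i hi => ?_, ?_⟩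
      · simp only [Finset.mem_union, not_or] at hi
        simp [foxG_mul, h1 i hi.1, h3 i hi.2]
      · have e1 : ∑ i ∈ S ∪ T, (single (FreeGroup.of i) (1 : K) - 1) * foxG K i g =
            single g 1 - 1 := by
          rw [h2]
          exact (Finset.sum_subset Finset.subset_union_left
            (fun i _ hi => by rw [h1 i hi, mul_zero])).symm
        have e2 : ∑ i ∈ S ∪ T, (single (FreeGroup.of i) (1 : K) - 1) * foxG K i h =
            single h 1 - 1 := by
          rw [h4]
          exact (Finset.sum_subset Finset.subset_union_right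
            (fun i _ hi => by rw [h3 i hi, mul_zero])).symm
        simp only [foxG_mul, mul_add, Finset.sum_add_distrib, ← mul_assoc, ← Finset.sum_mul,
          e1, e2]
        simp [sub_mul, single_mul_single]

lemma expand (x : MonoidAlgebra K (FreeGroup α)) : ∃ S : Finset α,
    (∀ i ∉ S, fox K i x = 0) ∧
    x = single 1 (eps K _ x) + ∑ i ∈ S, (single (FreeGroup.of i) 1 - 1) * fox K i x := by
  classical
  induction x using MonoidAlgebra.induction_linear with
  | zero => exact ⟨∅, by simp, by simp⟩
  | add u v hu hv =>
      obtain ⟨S, h1, h2⟩ := hu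
      obtain ⟨T, h3, h4⟩ := hv
      refine ⟨S ∪ T, fun i hi => ?_, ?_⟩
      · simp only [Finset.mem_union, not_or] at hi
        simp [map_add, h1 i hi.1, h3 i hi.2]
      · simp only [map_add, mul_add, Finset.sum_add_distrib, single_add]
        rw [← Finset.sum_subset Finset.subset_union_left
            (fun i _ hi => by rw [h1 i hi, mul_zero]),
          ← Finset.sum_subset Finset.subset_union_right
            (fun i _ hi => by rw [h3 i hi, mul_zero]),
          add_add_add_comm, ← h2, ← h4]
  | single g a =>
      obtain ⟨S, h1, h2⟩ := foxG_expand (K := K) g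
      refine ⟨S, fun i hi => by simp [h1 i hi], ?_⟩
      simp only [fox_single, mul_smul_comm, ← Finset.smul_sum, ← h2, eps_single]
      simp [smul_sub, one_def]

lemma mem_omega_pow_of_low (n : ℕ) :
    ∀ x : MonoidAlgebra K (FreeGroup α), Low K (n + 1) x → x ∈ omega K (FreeGroup α) ^ (n + 1) := by
  induction n with
  | zero =>
      intro x hx
      rw [zero_add, pow_one, mem_omega, ← eps_eq_aug]
      exact hx [] (by simp)
  | succ n ih =>
      intro x hx
      obtain ⟨S, -, h⟩ := expand x
      rw [h, show eps K _ x = 0 from hx [] (by simp), single_zero, zero_add, pow_succ']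
      refine Submodule.sum_mem _ fun i _ => Submodule.mul_mem_mul ?_ (ih _ fun w hw => ?_)
      · simp [mem_omega]
      · exact hx (i :: w) (by simpa using hw)

lemma low_of_mem_omega_pow (n : ℕ) :
    ∀ x ∈ omega K (FreeGroup α) ^ (n + 1), Low K (n + 1) x := by
  induction n with
  | zero =>
      intro x hx w hw
      rw [zero_add, pow_one] at hx
      rw [List.eq_nil_of_length_eq_zero (by omega : w.length = 0), coord_nil, eps_eq_aug]
      exact hx
  | succ n ih =>
      intro x hx
      rw [pow_succ] at hx
      refine Submodule.mul_induction_on hx (fun a ha b hb => ?_) (fun a b ha hb w hw => ?_)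
      · refine (coord_mul K (n + 1) 1 a b (ih a ha) fun w hw => ?_).1
        rw [List.eq_nil_of_length_eq_zero (by omega : w.length = 0), coord_nil, eps_eq_aug]
        exact hb
      · rw [map_add, ha w hw, hb w hw, add_zero]

/-- Group homomorphisms preserve the filtration. -/
lemma low_map {β : Type} [DecidableEq β] (f : FreeGroup α →* FreeGroup β) (n : ℕ)
    (x : MonoidAlgebra K (FreeGroup α)) (hx : Low K n x) :
    Low K n (mapDomainAlgHom K K f x) := by
  cases n with
  | zero => intro w hw; omega
  | succ n =>
      apply low_of_mem_omega_pow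
      have h1 : (omega K (FreeGroup α) ^ (n + 1)).map (mapDomainAlgHom K K f).toLinearMap ≤
          omega K (FreeGroup β) ^ (n + 1) := by
        rw [Submodule.map_pow]
        refine pow_le_pow_left' ?_ _
        rintro _ ⟨u, hu, rfl⟩
        exact mem_omega.2 ((aug_map f u).trans (mem_omega.1 hu))
      exact h1 ⟨x, mem_omega_pow_of_low n x hx, rfl⟩

/-- Magnus: coordinates separate points, in positive characteristic. -/
lemma eq_zero_of_coord_char_p (p : ℕ) [Fact p.Prime] [CharP K p]
    (x : MonoidAlgebra K (FreeGroup α)) (hx : ∀ w, coord K w x = 0) : x = 0 := by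
  classical
  by_contra hne
  obtain ⟨g₀, hg₀⟩ : x.coeff.support.Nonempty := by
    rwa [Finsupp.support_nonempty_iff, Ne, coeff_eq_zero]
  obtain ⟨P, _, _, f, hP, hf⟩ := separate p (FreeGroup α) (freeGroup_residually_p p)
    (x.coeff.support.image fun g => g₀⁻¹ * g)
  obtain ⟨m, hm⟩ := omega_pow_eq_bot (K := K) p (Nat.card P) P rfl hP
  have h1 : mapDomainAlgHom K K f x ∈ omega K P ^ (m + 1) := by
    have h : (omega K (FreeGroup α) ^ (m + 1)).map (mapDomainAlgHom K K f).toLinearMap ≤
        omega K P ^ (m + 1) := by
      rw [Submodule.map_pow]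
      refine pow_le_pow_left' ?_ _
      rintro _ ⟨u, hu, rfl⟩
      exact mem_omega.2 ((aug_map f u).trans (mem_omega.1 hu))
    exact h ⟨x, mem_omega_pow_of_low m x (fun w _ => hx w), rfl⟩
  rw [pow_succ, hm, Submodule.bot_mul, Submodule.mem_bot] at h1
  have h2 : (mapDomainAlgHom K K f x).coeff (f g₀) = x.coeff g₀ := by
    show Finsupp.mapDomain f x.coeff (f g₀) = _
    rw [Finsupp.mapDomain, Finsupp.sum_apply, Finsupp.sum, Finset.sum_eq_single g₀]
    · simp
    · intro g hg hgne
      rw [Finsupp.single_eq_of_ne]
      intro e
      refine hf (g₀⁻¹ * g) (Finset.mem_image_of_mem _ hg) ?_ (by simp [e])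
      rwa [Ne, inv_mul_eq_one, eq_comm]
    · intro h; simp [Finsupp.notMem_support_iff.1 h]
  rw [h1] at h2
  exact Finsupp.mem_support_iff.1 hg₀ (by simpa using h2.symm)

/-- Magnus: coordinates separate points over the integers. -/
lemma eq_zero_of_coord_int (x : MonoidAlgebra ℤ (FreeGroup α))
    (hx : ∀ w, coord ℤ w x = 0) : x = 0 := by
  ext g
  obtain ⟨p, hle, hp⟩ := Nat.exists_infinite_primes ((x.coeff g).natAbs + 1)
  have : Fact p.Prime := ⟨hp⟩
  have h : mapRingHom (FreeGroup α) (Int.castRingHom (ZMod p)) x = 0 :=
    eq_zero_of_coord_char_p p _ fun w => by rw [coord_map, hx w, map_zero]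
  have h1 : ((x.coeff g : ℤ) : ZMod p) = 0 := by
    have := congrArg (fun y : MonoidAlgebra (ZMod p) (FreeGroup α) => y.coeff g) h
    simpa using this
  rw [ZMod.intCast_zmod_eq_zero_iff_dvd] at h1
  by_contra hne
  have := Nat.le_of_dvd (Int.natAbs_pos.2 hne) (Int.natCast_dvd.1 h1)
  omega

/-- Magnus: coordinates separate points over every field. -/
theorem eq_zero_of_coord (x : MonoidAlgebra K (FreeGroup α)) (hx : ∀ w, coord K w x = 0) :
    x = 0 := by
  obtain ⟨p, hp⟩ := CharP.exists K
  rcases CharP.char_is_prime_or_zero K p with hprime | rfl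
  · have : Fact p.Prime := ⟨hprime⟩
    exact eq_zero_of_coord_char_p p x hx
  have : CharZero K := CharP.charP_to_charZero K
  have : Algebra ℚ K := DivisionRing.toRatAlgebra
  ext g
  show x.coeff g = 0
  by_contra hg
  obtain ⟨φ, hφ⟩ : ∃ φ : K →ₗ[ℚ] ℚ, φ (x.coeff g) ≠ 0 := by
    let b := Module.Free.chooseBasis ℚ K
    by_contra hall
    simp only [not_exists, not_not] at hall
    exact hg (b.forall_coord_eq_zero_iff.1 fun i => hall (b.coord i))
  -- clear denominators
  let D : ℤ := ∏ h ∈ x.coeff.support, ((φ (x.coeff h)).den : ℤ)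
  have hD : D ≠ 0 := Finset.prod_ne_zero_iff.2 fun h _ => by simp
  have hint : ∀ h, ∃ z : ℤ, (z : ℚ) = D * φ (x.coeff h) := by
    intro h
    by_cases hh : h ∈ x.coeff.support
    · obtain ⟨e, he⟩ : ((φ (x.coeff h)).den : ℤ) ∣ D := Finset.dvd_prod_of_mem _ hh
      refine ⟨e * (φ (x.coeff h)).num, ?_⟩
      rw [he]
      push_cast
      rw [mul_assoc, mul_comm (e : ℚ) (φ (x.coeff h)), ← mul_assoc, Rat.den_mul_eq_num]
      ring
    · exact ⟨0, by simp [Finsupp.notMem_support_iff.1 hh]⟩
  choose z hz using hint
  let y : MonoidAlgebra ℤ (FreeGroup α) := ∑ h ∈ x.coeff.support, single h (z h)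
  have hxs : x = ∑ h ∈ x.coeff.support, single h (x.coeff h) := (sum_coeff_single x).symm
  have hy : y = 0 := eq_zero_of_coord_int y fun w => by
    have hone : ∀ h, coord K w (single h (1 : K)) = ((coord ℤ w (single h (1 : ℤ)) : ℤ) : K) :=
      fun h => by simpa using coord_map (Int.castRingHom K) w (single h (1 : ℤ))
    have h0 : ∑ h ∈ x.coeff.support, x.coeff h * coord K w (single h (1 : K)) = 0 := by
      rw [← hx w]
      conv_rhs => rw [hxs, map_sum]
      exact Finset.sum_congr rfl fun h _ => by
        rw [← smul_eq_mul, ← map_smul, smul_single', mul_one]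
    have h1 := congrArg φ h0
    simp only [map_sum, map_zero, hone] at h1
    have h2 : ((coord ℤ w y : ℤ) : ℚ) = 0 := by
      rw [map_sum, Int.cast_sum]
      have h3 : ∀ h, ((coord ℤ w (single h (z h)) : ℤ) : ℚ) =
          D * φ (x.coeff h * ((coord ℤ w (single h (1 : ℤ)) : ℤ) : K)) := by
        intro h
        rw [show single h (z h) = z h • single h (1 : ℤ) by simp, map_smul, smul_eq_mul,
          Int.cast_mul, hz h,
          show x.coeff h * ((coord ℤ w (single h (1 : ℤ)) : ℤ) : K) =
            (coord ℤ w (single h (1 : ℤ)) : ℤ) • x.coeff h by rw [zsmul_eq_mul, mul_comm],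
          map_zsmul, zsmul_eq_mul]
        ring
      simp only [h3, ← Finset.mul_sum, h1, mul_zero]
    exact_mod_cast h2
  have hgs : g ∈ x.coeff.support := Finsupp.mem_support_iff.2 hg
  have : z g = 0 := by
    have h5 := congrArg (fun t : MonoidAlgebra ℤ (FreeGroup α) => t.coeff g) hy
    simpa [y, coeff_sum, Finsupp.single_apply, hgs] using h5
  have h6 := hz g
  rw [this, Int.cast_zero, eq_comm, mul_eq_zero] at h6
  exact h6.elim (fun h => hD (Int.cast_eq_zero.1 h)) hφ

end Field

end Vale.Agent.P201.Free
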