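import Vale.Agent.P201.Free.Magnus

/-!
# P201: free-by-domain groups have domain group algebras
-/

namespace Vale.Agent.P201.Free

open MonoidAlgebra Vale.Agent.P194

variable {K : Type} [Field K] {G : Type} [Group G]

/-- The coefficient at the coset r H. -/
noncomputable def rightCoeff (H : Subgroup G) (r : G) :
    MonoidAlgebra K G →ₗ[K] MonoidAlgebra K H where
  toFun x := ofCoeff (Finsupp.comapDomain (fun h : H => r * (h : G)) x.coeff
    (by intro a _ b _ hab; exact Subtype.ext (mul_left_cancel hab)))
  map_add' x y := by ext h; simp [Finsupp.comapDomain]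
  map_smul' c x := by ext h; simp [Finsupp.comapDomain]

@[simp] lemma rightCoeff_apply (H : Subgroup G) (r : G) (x : MonoidAlgebra K G) (h : H) :
    (rightCoeff H r x).coeff h = x.coeff (r * (h : G)) := by
  simp [rightCoeff, Finsupp.comapDomain]

lemma rightCoeff_mul_incl (H : Subgroup G) (r : G) (u : MonoidAlgebra K H)
    (x : MonoidAlgebra K G) : rightCoeff H r (x * incl H u) = rightCoeff H r x * u := by
  induction u using MonoidAlgebra.induction_linear with
  | zero => simp
  | add u v hu hv => rw [map_add, mul_add, map_add, mul_add, hu, hv]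
  | single g a =>
      ext h
      rw [incl_single, rightCoeff_apply, coeff_mul_single_apply, coeff_mul_single_apply,
        rightCoeff_apply]
      simp [mul_assoc]

lemma cosetCoeff_mul_single (H : Subgroup G) (r g : G) (x : MonoidAlgebra K G) :
    cosetCoeff H r (x * single g (1 : K)) = cosetCoeff H (r * g⁻¹) x := by
  ext h
  simp [mul_assoc]

lemma cosetCoeff_shift (H : Subgroup G) (r : G) (n : H) (x : MonoidAlgebra K G) :
    cosetCoeff H ((n : G) * r) x = cosetCoeff H r x * single n⁻¹ (1 : K) := by
  ext h
  simp [mul_assoc]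

variable (N : Subgroup G) [N.Normal]

lemma rightCoeff_eq_conj (r : G) (x : MonoidAlgebra K G) :
    rightCoeff N r x =
      mapDomainAlgHom K K (MulAut.conjNormal r⁻¹ : MulAut N).toMonoidHom (cosetCoeff N r x) := by
  ext h
  have hh : h = (MulAut.conjNormal r⁻¹ : MulAut N) ((MulAut.conjNormal r : MulAut N) h) :=
    Subtype.ext (by simp [mul_assoc])
  rw [rightCoeff_apply]
  show _ = Finsupp.mapDomain _ (cosetCoeff N r x).coeff h
  conv_rhs => rw [hh]
  erw [Finsupp.mapDomain_apply (MulEquiv.injective _)]
  simp [mul_assoc]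

lemma cosetCoeff_eq_conj (r : G) (x : MonoidAlgebra K G) :
    cosetCoeff N r x =
      mapDomainAlgHom K K (MulAut.conjNormal r : MulAut N).toMonoidHom (rightCoeff N r x) := by
  ext h
  have hh : h = (MulAut.conjNormal r : MulAut N) ((MulAut.conjNormal r⁻¹ : MulAut N) h) :=
    Subtype.ext (by simp [mul_assoc])
  rw [cosetCoeff_apply]
  show _ = Finsupp.mapDomain _ (rightCoeff N r x).coeff h
  conv_rhs => rw [hh]
  erw [Finsupp.mapDomain_apply (MulEquiv.injective _)]
  simp [mul_assoc]

variable {α : Type} [DecidableEq α] (e : N ≃* FreeGroup α)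

/-- Magnus coordinates transported to the normal subgroup. -/
noncomputable def crd (w : List α) : MonoidAlgebra K N →ₗ[K] K :=
  (coord K w).comp (mapDomainAlgHom K K e.toMonoidHom).toLinearMap

/-- Vanishing of the coordinates of degree less than n. -/
def LowN (n : ℕ) (z : MonoidAlgebra K N) : Prop :=
  ∀ w : List α, w.length < n → crd N e w z = 0

variable {N}

lemma lowN_conj (f : MulAut N) (n : ℕ) (z : MonoidAlgebra K N) (hz : LowN N e n z) :
    LowN N e n (mapDomainAlgHom K K f.toMonoidHom z) := by
  intro w hw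
  let g : FreeGroup α →* FreeGroup α :=
    e.toMonoidHom.comp (f.toMonoidHom.comp e.symm.toMonoidHom)
  have key : mapDomainAlgHom K K e.toMonoidHom (mapDomainAlgHom K K f.toMonoidHom z) =
      mapDomainAlgHom K K g (mapDomainAlgHom K K e.toMonoidHom z) := by
    clear hz
    induction z using MonoidAlgebra.induction_linear with
    | zero => simp
    | add u v hu hv => simp only [map_add] at hu hv ⊢; rw [hu, hv]
    | single a c => simp [g, mapDomain_single]
  show coord K w _ = 0
  erw [key]
  exact low_map g n _ (fun v hv => hz v hv) w hw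

lemma crd_mul (n m : ℕ) (a b : MonoidAlgebra K N) (ha : LowN N e n a) (hb : LowN N e m b) :
    LowN N e (n + m) (a * b) ∧ ∀ u v : List α, u.length = n → v.length = m →
      crd N e (u ++ v) (a * b) = crd N e u a * crd N e v b := by
  have h := coord_mul K n m (mapDomainAlgHom K K e.toMonoidHom a)
    (mapDomainAlgHom K K e.toMonoidHom b) ha hb
  refine ⟨fun w hw => ?_, fun u v hu hv => ?_⟩
  · show coord K w (mapDomainAlgHom K K e.toMonoidHom (a * b)) = 0
    rw [map_mul]
    exact h.1 w hw
  · show coord K (u ++ v) (mapDomainAlgHom K K e.toMonoidHom (a * b)) = _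
    rw [map_mul]
    exact h.2 u v hu hv

lemma eq_zero_of_crd (z : MonoidAlgebra K N) (hz : ∀ w, crd N e w z = 0) : z = 0 := by
  have h : mapDomainAlgHom K K e.toMonoidHom z = 0 := eq_zero_of_coord _ hz
  ext a
  have := congrArg (fun t : MonoidAlgebra K (FreeGroup α) => t.coeff (e a)) h
  change Finsupp.mapDomain e z.coeff (e a) = (0 : K) at this
  rwa [Finsupp.mapDomain_apply e.injective] at this

/-- Every left coset coefficient has vanishing coordinates of degree less than n. -/
def Fil (n : ℕ) (x : MonoidAlgebra K G) : Prop :=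
  ∀ g : G, LowN N e n (cosetCoeff N g x)

lemma crd_shift (i : ℕ) (x : MonoidAlgebra K G) (hx : Fil e i x) (u : List α)
    (hu : u.length = i) (g g' : G) (hg : (QuotientGroup.mk g : G ⧸ N) = QuotientGroup.mk g') :
    crd N e u (cosetCoeff N g x) = crd N e u (cosetCoeff N g' x) := by
  have hn : g * g'⁻¹ ∈ N := by
    simpa [div_eq_mul_inv] using QuotientGroup.eq_iff_div_mem.1 hg
  have h := cosetCoeff_shift N g' (⟨_, hn⟩ : N) x
  simp only [inv_mul_cancel_right] at h
  rw [h]
  have h2 := (crd_mul e i 0 (cosetCoeff N g' x) (single (⟨_, hn⟩ : N)⁻¹ 1) (hx g')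
    (fun w hw => absurd hw (by omega))).2 u [] hu rfl
  rw [List.append_nil] at h2
  rw [h2]
  simp [crd, mapDomain_single]

open scoped Classical in
/-- The degree-i symbol of x in the coordinate u. -/
noncomputable def leftSymbol (u : List α) (x : MonoidAlgebra K G) : MonoidAlgebra K (G ⧸ N) :=
  ofCoeff (Finsupp.onFinset (x.coeff.support.image QuotientGroup.mk)
    (fun q => crd N e u (cosetCoeff N q.out x)) (fun q hq => by
      obtain ⟨h, hh⟩ : ∃ h : N, x.coeff ((h : G) * q.out) ≠ 0 := by
        by_contra hall
        simp only [not_exists, not_not] at hall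
        apply hq
        rw [show cosetCoeff N q.out x = 0 by ext h; simp [hall h], map_zero]
      refine Finset.mem_image.2 ⟨_, Finsupp.mem_support_iff.2 hh, ?_⟩
      conv_rhs => rw [← QuotientGroup.out_eq' q]
      exact (QuotientGroup.eq_iff_div_mem).2 (by simp)))

open scoped Classical in
/-- The symbol of y in the coordinate v, from the right. -/
noncomputable def rightSymbol (v : List α) (y : MonoidAlgebra K G) : MonoidAlgebra K (G ⧸ N) :=
  ofCoeff (Finsupp.onFinset (y.coeff.support.image QuotientGroup.mk)
    (fun q => crd N e v (rightCoeff N q.out y)) (fun q hq => by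
      obtain ⟨h, hh⟩ : ∃ h : N, y.coeff (q.out * (h : G)) ≠ 0 := by
        by_contra hall
        simp only [not_exists, not_not] at hall
        apply hq
        rw [show rightCoeff N q.out y = 0 by ext h; simp [hall h], map_zero]
      refine Finset.mem_image.2 ⟨_, Finsupp.mem_support_iff.2 hh, ?_⟩
      conv_rhs => rw [← QuotientGroup.out_eq' q]
      exact QuotientGroup.eq.2 (by simp)))

open scoped Classical in
lemma decompose_right (y : MonoidAlgebra K G) :
    y = ∑ q ∈ y.coeff.support.image (QuotientGroup.mk : G → G ⧸ N),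
      single q.out (1 : K) * incl N (rightCoeff N q.out y) := by
  ext s
  have term : ∀ q : G ⧸ N, (single q.out (1 : K) * incl N (rightCoeff N q.out y)).coeff s =
      if q = QuotientGroup.mk s then y.coeff s else 0 := by
    intro q
    rw [coeff_single_mul_apply, one_mul]
    show Finsupp.mapDomain N.subtype (rightCoeff N q.out y).coeff _ = _
    by_cases hq : q = QuotientGroup.mk s
    · have hm : q.out⁻¹ * s ∈ N :=
        QuotientGroup.eq.1 ((QuotientGroup.out_eq' q).trans hq)
      rw [if_pos hq, show q.out⁻¹ * s = N.subtype ⟨_, hm⟩ from rfl,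
        Finsupp.mapDomain_apply N.subtype_injective, rightCoeff_apply]
      simp
    · rw [if_neg hq, Finsupp.mapDomain_of_notMem_range]
      rintro ⟨z, hz⟩
      apply hq
      rw [← QuotientGroup.out_eq' q]
      exact QuotientGroup.eq.2 (hz ▸ z.2)
  rw [coeff_sum, Finsupp.finsetSum_apply, Finset.sum_congr rfl fun q _ => term q,
    Finset.sum_ite_eq']
  split_ifs with h
  · rfl
  · by_contra hne
    exact h (Finset.mem_image_of_mem _ (Finsupp.mem_support_iff.2 hne))

/-- The key identity: a zero product has a zero product of symbols. -/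
lemma symbol_mul_eq_zero (i j : ℕ) (x y : MonoidAlgebra K G) (hx : Fil e i x)
    (hy : ∀ g, LowN N e j (rightCoeff N g y)) (hxy : x * y = 0)
    (u v : List α) (hu : u.length = i) (hv : v.length = j) :
    leftSymbol e u x * rightSymbol e v y = 0 := by
  classical
  let T := y.coeff.support.image (QuotientGroup.mk : G → G ⧸ N)
  let M : G ⧸ N → K := fun q => crd N e v (rightCoeff N q.out y)
  let z : MonoidAlgebra K G := ∑ q ∈ T, M q • (x * single q.out (1 : K))
  have hxq : ∀ (g r : G), LowN N e i (cosetCoeff N r (x * single g (1 : K))) := fun g r => by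
    rw [cosetCoeff_mul_single]; exact hx _
  have hxqR : ∀ (g r : G), LowN N e i (rightCoeff N r (x * single g (1 : K))) := fun g r => by
    rw [rightCoeff_eq_conj]; exact lowN_conj e _ i _ (hxq g r)
  have h1 : ∀ r (w : List α), w.length = i → crd N e w (rightCoeff N r z) = 0 := by
    intro r w hw
    have h0 : rightCoeff N r (x * y) = 0 := by rw [hxy, map_zero]
    conv at h0 => lhs; rw [decompose_right (N := N) y, Finset.mul_sum, map_sum]
    have h2 := congrArg (crd N e (w ++ v)) h0
    rw [map_sum, map_zero] at h2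
    rw [← h2, map_sum, map_sum]
    refine Finset.sum_congr rfl fun q _ => ?_
    rw [map_smul, map_smul, ← mul_assoc, rightCoeff_mul_incl,
      (crd_mul e i j _ _ (hxqR _ r) (hy _)).2 w v hw hv, smul_eq_mul, mul_comm]
  have hzlow : ∀ r, LowN N e (i + 1) (rightCoeff N r z) := by
    intro r w hw
    rcases Nat.lt_succ_iff_lt_or_eq.1 hw with hlt | heq
    · rw [map_sum, map_sum]
      refine Finset.sum_eq_zero fun q _ => ?_
      rw [map_smul, map_smul, hxqR _ r w hlt, smul_zero]
    · exact h1 r w heq
  ext r
  obtain ⟨r, rfl⟩ := QuotientGroup.mk_surjective r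
  have h3 : crd N e u (cosetCoeff N r z) = 0 := by
    rw [cosetCoeff_eq_conj]
    exact lowN_conj e _ (i + 1) _ (hzlow r) u (by omega)
  have hsub : (rightSymbol e v y).coeff.support ⊆ T := by
    simp only [rightSymbol, coeff_ofCoeff, Finsupp.support_onFinset]
    exact Finset.filter_subset _ _
  rw [coeff_zero, Finsupp.zero_apply, ← h3, map_sum, map_sum, coeff_mul_apply_right,
    Finsupp.sum_of_support_subset _ hsub _ (fun a _ => mul_zero _)]
  refine Finset.sum_congr rfl fun q _ => ?_
  rw [map_smul, map_smul, cosetCoeff_mul_single, smul_eq_mul]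
  show crd N e u (cosetCoeff N ((QuotientGroup.mk r : G ⧸ N) * q⁻¹).out x) * M q = _
  rw [crd_shift e i x hx u hu _ (r * q.out⁻¹) (by simp), mul_comm]

include e in
/-- Free-by-domain: the group algebra of G is a domain. -/
theorem mul_eq_zero_of_free [NoZeroDivisors (MonoidAlgebra K (G ⧸ N))]
    (x y : MonoidAlgebra K G) (hxy : x * y = 0) : x = 0 ∨ y = 0 := by
  classical
  by_contra hne
  simp only [not_or] at hne
  have hex : ∃ i, ∃ g : G, ∃ u : List α, u.length = i ∧ crd N e u (cosetCoeff N g x) ≠ 0 := by
    by_contra hall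
    refine hne.1 (MonoidAlgebra.ext (Finsupp.ext fun g => ?_))
    have h : cosetCoeff N g x = 0 := eq_zero_of_crd e _ fun w => by
      by_contra hw
      exact hall ⟨_, g, w, rfl, hw⟩
    simpa using congrArg (fun t : MonoidAlgebra K N => t.coeff 1) h
  have hey : ∃ j, ∃ g : G ⧸ N, ∃ v : List α,
      v.length = j ∧ crd N e v (rightCoeff N g.out y) ≠ 0 := by
    by_contra hall
    refine hne.2 ((decompose_right (N := N) y).trans (Finset.sum_eq_zero fun q _ => ?_))
    rw [eq_zero_of_crd e (rightCoeff N q.out y) fun w => by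
      by_contra hw
      exact hall ⟨_, q, w, rfl, hw⟩, map_zero, mul_zero]
  obtain ⟨g, u, hu, hgu⟩ := Nat.find_spec hex
  obtain ⟨q, v, hv, hqv⟩ := Nat.find_spec hey
  have hx : Fil e (Nat.find hex) x := fun g' w hw => by
    by_contra h
    exact Nat.find_min hex hw ⟨g', w, rfl, h⟩
  have hy : ∀ g', LowN N e (Nat.find hey) (rightCoeff N g' y) := by
    intro g' w hw
    have hm : (g'⁻¹ * (QuotientGroup.mk g' : G ⧸ N).out) ∈ N :=
      QuotientGroup.eq.1 (QuotientGroup.out_eq' _).symm
    have hshift : rightCoeff N g' y =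
        single (⟨_, hm⟩ : N) (1 : K) * rightCoeff N (QuotientGroup.mk g' : G ⧸ N).out y := by
      ext h; simp [mul_assoc]
    rw [hshift]
    have hl : LowN N e (Nat.find hey) (rightCoeff N (QuotientGroup.mk g' : G ⧸ N).out y) :=
      fun w' hw' => by
        by_contra h
        exact Nat.find_min hey hw' ⟨_, w', rfl, h⟩
    exact (crd_mul e 0 _ _ _ (fun w' hw' => absurd hw' (by omega)) hl).1 w (by omega)
  rcases mul_eq_zero.1 (symbol_mul_eq_zero e _ _ x y hx hy hxy u v hu hv) with h | h
  · apply hgu
    rw [crd_shift e _ x hx u hu g (QuotientGroup.mk g : G ⧸ N).out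
      (QuotientGroup.out_eq' _).symm]
    exact congrArg (fun t : MonoidAlgebra K (G ⧸ N) => t.coeff (QuotientGroup.mk g)) h
  · exact hqv (congrArg (fun t : MonoidAlgebra K (G ⧸ N) => t.coeff q) h)

end Vale.Agent.P201.Free
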